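import Vale.Agent.H88.CT.Final

/-!
Mixing of the lazy `2 x 2` heat-bath chain on a class of contingency tables from an arbitrary
Poincare inequality (any constant), and the corresponding explicit mixing time.
-/

namespace Vale.Agent.H88.CT

open Finset Vale.Agent.H90

variable {m n : ℕ}

/-- Squared `ℓ¹` decay of the lazy `2 x 2` heat-bath chain from a Poincare inequality with
constant `γ`. -/
theorem block_mixing_of_poincare (hm : 2 ≤ m) (hn : 2 ≤ n) (r : Fin m → ℕ) (c : Fin n → ℕ)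
    (γ : ℝ) (hγ : γ ≤ 2)
    (hP : ∀ f : Omega r c → ℝ, ∑ X, f X = 0 →
      γ * ∑ X, f X ^ 2 ≤ (1 / 2 : ℝ) * ∑ X, ∑ Y, blockChain r c X Y * (f X - f Y) ^ 2)
    (t : ℕ) (X : Omega r c) :
    (∑ Y, |(((1 / 2 : ℝ) • (1 + blockChain r c)) ^ t) X Y
        - 1 / (Fintype.card (Omega r c) : ℝ)|) ^ 2
      ≤ (Fintype.card (Omega r c) : ℝ) * (1 - γ / 2) ^ t := by
  have h1 : (2 : ℝ) ≤ m := by exact_mod_cast hm
  have h1' : (2 : ℝ) ≤ n := by exact_mod_cast hn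
  have hpm : (0 : ℝ) < (m : ℝ) * (m - 1) := by nlinarith
  have hpn : (0 : ℝ) < (n : ℝ) * (n - 1) := by nlinarith
  have hK := blockChain_eq r c
  have hsymm : ∀ X Y, blockChain r c X Y = blockChain r c Y X := by
    intro X Y; rw [hK]
    exact mixK_symm (fun q : (Fin m × Fin m) × (Fin n × Fin n) =>
        BlockRel (r := r) (c := c) q.1.1 q.1.2 q.2.1 q.2.2)
      (fun q => q.1.1 ≠ q.1.2 ∧ q.2.1 ≠ q.2.2)
      (fun q => Rows.blockRel_equiv q.1.1 q.1.2 q.2.1 q.2.2) _ X Y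
  have hnn : ∀ X Y, 0 ≤ blockChain r c X Y := by
    intro X Y; rw [hK]
    exact mixK_nonneg (fun q : (Fin m × Fin m) × (Fin n × Fin n) =>
        BlockRel (r := r) (c := c) q.1.1 q.1.2 q.2.1 q.2.2)
      (fun q => q.1.1 ≠ q.1.2 ∧ q.2.1 ≠ q.2.2) _ (by positivity) X Y
  have hrow : ∀ X, ∑ Y, blockChain r c X Y = 1 := by
    intro X; rw [hK]
    exact mixK_row (fun q : (Fin m × Fin m) × (Fin n × Fin n) =>
        BlockRel (r := r) (c := c) q.1.1 q.1.2 q.2.1 q.2.2)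
      (fun q => q.1.1 ≠ q.1.2 ∧ q.2.1 ≠ q.2.2)
      (fun q => Rows.blockRel_equiv q.1.1 q.1.2 q.2.1 q.2.2) _ (block_weight hm hn) X
  exact Vale.Agent.H12.MixCore.l1_bound (blockChain r c) hsymm hnn hrow γ hγ hP t X

/-- Explicit mixing time of the lazy `2 x 2` heat-bath chain from a Poincare inequality with
constant `γ`: `t ≥ (2 / γ) (m ∑ log (c_j + 1) + 2 log (1 / ε))` steps suffice. -/
theorem block_mixing_time_of_poincare (hm : 2 ≤ m) (hn : 2 ≤ n) (r : Fin m → ℕ)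
    (c : Fin n → ℕ) (γ : ℝ) (hγ0 : 0 < γ) (hγ : γ ≤ 2)
    (hP : ∀ f : Omega r c → ℝ, ∑ X, f X = 0 →
      γ * ∑ X, f X ^ 2 ≤ (1 / 2 : ℝ) * ∑ X, ∑ Y, blockChain r c X Y * (f X - f Y) ^ 2)
    (ε : ℝ) (hε : 0 < ε) (t : ℕ)
    (ht : 2 / γ * ((m : ℝ) * ∑ j, Real.log ((c j : ℝ) + 1) + 2 * Real.log (1 / ε)) ≤ t)
    (X : Omega r c) :
    (1 / 2 : ℝ) * ∑ Y, |(((1 / 2 : ℝ) • (1 + blockChain r c)) ^ t) X Y
        - 1 / (Fintype.card (Omega r c) : ℝ)| ≤ ε := by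
  have hcard : (1 : ℝ) ≤ (Fintype.card (Omega r c) : ℝ) := by
    have : 0 < Fintype.card (Omega r c) := Fintype.card_pos_iff.mpr ⟨X⟩
    exact_mod_cast this
  have hS : 0 ≤ ∑ Y, |(((1 / 2 : ℝ) • (1 + blockChain r c)) ^ t) X Y
        - 1 / (Fintype.card (Omega r c) : ℝ)| :=
    Finset.sum_nonneg (fun Y _ => abs_nonneg _)
  have key := eps_of_decay _ (Fintype.card (Omega r c) : ℝ) (γ / 2)
    ((m : ℝ) * ∑ j, Real.log ((c j : ℝ) + 1)) ε t hS hcard (by positivity) (by linarith)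
    (block_mixing_of_poincare hm hn r c γ hγ hP t X) hε (log_card_Omega_le r c X)
    (by
      have e : ((m : ℝ) * ∑ j, Real.log ((c j : ℝ) + 1) + 2 * Real.log (1 / ε)) / (γ / 2)
          = 2 / γ * ((m : ℝ) * ∑ j, Real.log ((c j : ℝ) + 1) + 2 * Real.log (1 / ε)) := by
        field_simp
      rw [e]; exact ht)
  linarith

end Vale.Agent.H88.CT
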